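import Mathlib

/-!
Per-cell bounds for the Gaussian first moment of a set, used for the propeller problem (P226).
-/

namespace Vale.Agent.Lib.P226

open MeasureTheory ProbabilityTheory Real Set
open scoped RealInnerProductSpace

/-! ### One-dimensional Gaussian computations -/

/-- Integral against the standard normal law as a Lebesgue integral with explicit density. -/
lemma integral_stdGauss (h : ℝ → ℝ) :
    ∫ x, h x ∂(gaussianReal 0 1) = ∫ x, (√(2 * π))⁻¹ * rexp (-(1/2) * x ^ 2) * h x := by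
  rw [integral_gaussianReal_eq_integral_smul (by norm_num)]
  congr 1; ext x
  simp only [gaussianPDFReal, NNReal.coe_one, mul_one, sub_zero, smul_eq_mul]
  have : -x ^ 2 / 2 = -(1 / 2) * x ^ 2 := by ring
  rw [this]

lemma gamma_five_half : Real.Gamma (5 / 2) = 3 / 4 * √π := by
  have h1 : Real.Gamma (1 / 2 + 1) = 1 / 2 * Real.Gamma (1 / 2) :=
    Real.Gamma_add_one (by norm_num)
  have h2 : Real.Gamma (3 / 2 + 1) = 3 / 2 * Real.Gamma (3 / 2) :=
    Real.Gamma_add_one (by norm_num)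
  have e1 : (1 / 2 + 1 : ℝ) = 3 / 2 := by norm_num
  have e2 : (3 / 2 + 1 : ℝ) = 5 / 2 := by norm_num
  rw [e1] at h1; rw [e2] at h2
  rw [h2, h1, Real.Gamma_one_half_eq]; ring

lemma integral_Ioi_pow4_exp :
    ∫ x in Ioi (0 : ℝ), x ^ 4 * rexp (-(1/2) * x ^ 2) = 3 / 2 * √(2 * π) := by
  have h := integral_rpow_mul_exp_neg_mul_rpow (p := 2) (q := 4) (b := 1 / 2)
    (by norm_num) (by norm_num) (by norm_num)
  have hcongr : ∫ x in Ioi (0 : ℝ), x ^ 4 * rexp (-(1/2) * x ^ 2)
      = ∫ x in Ioi (0 : ℝ), x ^ (4 : ℝ) * rexp (-(1/2) * x ^ (2 : ℝ)) := by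
    refine setIntegral_congr_fun measurableSet_Ioi (fun x hx => ?_)
    have e4 : x ^ (4 : ℝ) = x ^ 4 := by
      rw [show (4 : ℝ) = ((4 : ℕ) : ℝ) by norm_num, Real.rpow_natCast]
    have e2 : x ^ (2 : ℝ) = x ^ 2 := by
      rw [show (2 : ℝ) = ((2 : ℕ) : ℝ) by norm_num, Real.rpow_natCast]
    simp only [e4, e2]
  rw [hcongr, h]
  have e3 : ((4 : ℝ) + 1) / 2 = 5 / 2 := by norm_num
  rw [e3, gamma_five_half]
  have e4 : (-((4 : ℝ) + 1) / 2) = -(5 / 2) := by norm_num
  rw [e4]
  have h5 : ((1 : ℝ) / 2) ^ (-(5 / 2 : ℝ)) = 4 * √2 := by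
    rw [Real.rpow_neg (by norm_num), one_div, Real.inv_rpow (by norm_num), inv_inv]
    have : (2 : ℝ) ^ (5 / 2 : ℝ) = 2 ^ (2 : ℝ) * 2 ^ (1 / 2 : ℝ) := by
      rw [← Real.rpow_add (by norm_num)]; norm_num
    rw [this, ← Real.sqrt_eq_rpow]
    norm_num
  rw [h5]
  have h6 : √(2 * π) = √2 * √π := Real.sqrt_mul (by norm_num) π
  rw [h6]
  have h7 : √2 * √2 = 2 := Real.mul_self_sqrt (by norm_num)
  nlinarith [h7]

/-- The fourth moment of the positive part of a standard normal variable is `3/2`. -/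
lemma fourth_moment_pos_part :
    ∫ x, (max x 0) ^ 4 ∂(gaussianReal 0 1) = 3 / 2 := by
  rw [integral_stdGauss]
  have h1 : ∫ x, (√(2 * π))⁻¹ * rexp (-(1/2) * x ^ 2) * (max x 0) ^ 4
      = ∫ x in Ioi (0:ℝ), (√(2 * π))⁻¹ * (x ^ 4 * rexp (-(1/2) * x ^ 2)) := by
    rw [← setIntegral_eq_integral_of_forall_compl_eq_zero (s := Ioi (0:ℝ))]
    · refine setIntegral_congr_fun measurableSet_Ioi (fun x hx => ?_)
      rw [max_eq_left (le_of_lt hx)]; ring
    · intro x hx
      have : x ≤ 0 := by simpa using hx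
      simp [max_eq_right this]
  rw [h1, integral_const_mul, integral_Ioi_pow4_exp]
  have : √(2 * π) ≠ 0 := by positivity
  field_simp

lemma integrable_pos_part_pow4 :
    Integrable (fun x : ℝ => (max x 0) ^ 4) (gaussianReal 0 1) := by
  have h := (memLp_id_gaussianReal (μ := 0) (v := 1) 4).integrable_norm_pow (p := 4) (by norm_num)
  refine Integrable.mono' h ?_ ?_
  · exact (measurable_id.max measurable_const).pow_const 4 |>.aestronglyMeasurable
  · refine Filter.Eventually.of_forall (fun x => ?_)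
    have h0 : 0 ≤ max x 0 := le_max_right _ _
    have h1 : max x 0 ≤ |x| := max_le (le_abs_self x) (abs_nonneg x)
    simp only [id, Real.norm_eq_abs]
    rw [abs_of_nonneg (pow_nonneg h0 4)]
    exact pow_le_pow_left₀ h0 h1 4

lemma integral_Ioi_mul_exp : ∫ x in Ioi (0 : ℝ), x * rexp (-(1/2) * x ^ 2) = 1 := by
  have h := integral_rpow_mul_exp_neg_mul_rpow (p := 2) (q := 1) (b := 1 / 2)
    (by norm_num) (by norm_num) (by norm_num)
  have hcongr : ∫ x in Ioi (0 : ℝ), x * rexp (-(1/2) * x ^ 2)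
      = ∫ x in Ioi (0 : ℝ), x ^ (1 : ℝ) * rexp (-(1/2) * x ^ (2 : ℝ)) := by
    refine setIntegral_congr_fun measurableSet_Ioi (fun x hx => ?_)
    have e2 : x ^ (2 : ℝ) = x ^ 2 := by
      rw [show (2 : ℝ) = ((2 : ℕ) : ℝ) by norm_num, Real.rpow_natCast]
    simp only [e2, Real.rpow_one]
  rw [hcongr, h]
  have e3 : (-((1 : ℝ) + 1) / 2) = -1 := by norm_num
  have e4 : (((1 : ℝ) + 1) / 2) = 1 := by norm_num
  rw [e3, e4, Real.Gamma_one, Real.rpow_neg (by norm_num), Real.rpow_one]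
  norm_num

lemma integral_Ioi_exp : ∫ x in Ioi (0 : ℝ), rexp (-(1/2) * x ^ 2) = √(2 * π) / 2 := by
  rw [integral_gaussian_Ioi]
  congr 2
  field_simp

lemma exp_neg_le_quad {y : ℝ} (hy : 0 ≤ y) : rexp (-y) ≤ 1 - y + y ^ 2 / 2 := by
  have h1 : 1 + y + y ^ 2 / 2 ≤ rexp y := Real.quadratic_le_exp_of_nonneg hy
  have hpos : 0 < 1 + y + y ^ 2 / 2 := by positivity
  rw [Real.exp_neg]
  have h2 : (rexp y)⁻¹ ≤ (1 + y + y ^ 2 / 2)⁻¹ := inv_anti₀ hpos h1
  refine h2.trans ?_
  rw [inv_le_iff_one_le_mul₀ hpos]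
  nlinarith [sq_nonneg (y^2)]

lemma poly_antideriv (c t x : ℝ) : HasDerivAt
    (fun x : ℝ => c * (t * x - x ^ 2 / 2 - t * x ^ 3 / 6 + x ^ 4 / 8
      + t * x ^ 5 / 40 - x ^ 6 / 48))
    (c * (1 - x ^ 2 / 2 + x ^ 4 / 8) * (t - x)) x := by
  have h1 : HasDerivAt (fun x : ℝ => t * x) t x := by
    simpa using (hasDerivAt_id x).const_mul t
  have h2 : HasDerivAt (fun x : ℝ => x ^ 2 / 2) (x) x := by
    refine ((hasDerivAt_pow 2 x).div_const 2).congr_deriv ?_
    norm_num
  have h3 : HasDerivAt (fun x : ℝ => t * x ^ 3 / 6) (t * x ^ 2 / 2) x := by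
    refine (((hasDerivAt_pow 3 x).const_mul t).div_const 6).congr_deriv ?_
    norm_num; ring
  have h4 : HasDerivAt (fun x : ℝ => x ^ 4 / 8) (x ^ 3 / 2) x := by
    refine ((hasDerivAt_pow 4 x).div_const 8).congr_deriv ?_
    norm_num; ring
  have h5 : HasDerivAt (fun x : ℝ => t * x ^ 5 / 40) (t * x ^ 4 / 8) x := by
    refine (((hasDerivAt_pow 5 x).const_mul t).div_const 40).congr_deriv ?_
    norm_num; ring
  have h6 : HasDerivAt (fun x : ℝ => x ^ 6 / 48) (x ^ 5 / 8) x := by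
    refine ((hasDerivAt_pow 6 x).div_const 48).congr_deriv ?_
    norm_num; ring
  have h := (((((h1.sub h2).sub h3).add h4).add h5).sub h6).const_mul c
  refine h.congr_deriv ?_
  ring

/-- Upper bound for `E (g - t)^+`, `g` standard normal, `t ≥ 0`. -/
lemma psi_le {t : ℝ} (ht : 0 ≤ t) :
    ∫ x, max (x - t) 0 ∂(gaussianReal 0 1)
      ≤ (√(2 * π))⁻¹ * (1 + t ^ 2 / 2 - t ^ 4 / 24 + t ^ 6 / 240) - t / 2 := by
  rw [integral_stdGauss]
  set c := (√(2 * π))⁻¹ with hc
  have hcpos : 0 < c := by positivity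
  have hdecomp : ∀ x : ℝ, c * rexp (-(1/2) * x ^ 2) * max (x - t) 0
      = (Ioi (0:ℝ)).indicator
          (fun x => c * (x * rexp (-(1/2) * x ^ 2)) - t * c * rexp (-(1/2) * x ^ 2)) x
        + (Ioc (0:ℝ) t).indicator (fun x => c * rexp (-(1/2) * x ^ 2) * (t - x)) x := by
    intro x
    by_cases h0 : 0 < x
    · by_cases h1 : x ≤ t
      · rw [indicator_of_mem (mem_Ioi.2 h0), indicator_of_mem (mem_Ioc.2 ⟨h0, h1⟩),
          max_eq_right (by linarith)]
        ring
      · rw [indicator_of_mem (mem_Ioi.2 h0),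
          indicator_of_notMem (show x ∉ Ioc (0:ℝ) t from fun h => h1 h.2),
          max_eq_left (by linarith)]
        ring
    · rw [indicator_of_notMem (show x ∉ Ioi (0:ℝ) from fun h => h0 h),
        indicator_of_notMem (show x ∉ Ioc (0:ℝ) t from fun h => h0 h.1),
        max_eq_right (by linarith)]
      ring
  simp_rw [hdecomp]
  have hexp : Integrable (fun x : ℝ => rexp (-(1/2) * x ^ 2)) :=
    integrable_exp_neg_mul_sq (by norm_num)
  have hmulexp : Integrable (fun x : ℝ => x * rexp (-(1/2) * x ^ 2)) :=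
    integrable_mul_exp_neg_mul_sq (by norm_num)
  have hI1 : IntegrableOn (fun x : ℝ => c * (x * rexp (-(1/2) * x ^ 2))
      - t * c * rexp (-(1/2) * x ^ 2)) (Ioi 0) := by
    apply Integrable.integrableOn
    exact (hmulexp.const_mul c).sub (by simpa [mul_assoc] using hexp.const_mul (t * c))
  have hI2 : IntegrableOn (fun x : ℝ => c * rexp (-(1/2) * x ^ 2) * (t - x)) (Ioc 0 t) := by
    apply Continuous.integrableOn_Ioc
    fun_prop
  rw [integral_add (hI1.integrable_indicator measurableSet_Ioi)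
    (hI2.integrable_indicator measurableSet_Ioc),
    integral_indicator measurableSet_Ioi, integral_indicator measurableSet_Ioc]
  have e1 : ∫ x in Ioi (0:ℝ), (c * (x * rexp (-(1/2) * x ^ 2)) - t * c * rexp (-(1/2) * x ^ 2))
      = c - t / 2 := by
    have hA : IntegrableOn (fun x : ℝ => c * (x * rexp (-(1/2) * x ^ 2))) (Ioi 0) :=
      (hmulexp.const_mul c).integrableOn
    have hB : IntegrableOn (fun x : ℝ => t * c * rexp (-(1/2) * x ^ 2)) (Ioi 0) :=
      (hexp.const_mul (t * c)).integrableOn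
    rw [integral_sub hA hB, integral_const_mul, integral_const_mul, integral_Ioi_mul_exp,
      integral_Ioi_exp]
    have h2 : √(2 * π) ≠ 0 := by positivity
    rw [hc]
    field_simp
  have e2 : ∫ x in Ioc (0:ℝ) t, c * rexp (-(1/2) * x ^ 2) * (t - x)
      ≤ c * (t ^ 2 / 2 - t ^ 4 / 24 + t ^ 6 / 240) := by
    have hI3 : IntegrableOn (fun x : ℝ => c * (1 - x ^ 2 / 2 + x ^ 4 / 8) * (t - x))
        (Ioc 0 t) := by
      apply Continuous.integrableOn_Ioc
      fun_prop
    calc ∫ x in Ioc (0:ℝ) t, c * rexp (-(1/2) * x ^ 2) * (t - x)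
        ≤ ∫ x in Ioc (0:ℝ) t, c * (1 - x ^ 2 / 2 + x ^ 4 / 8) * (t - x) := by
          refine setIntegral_mono_on hI2 hI3 measurableSet_Ioc (fun x hx => ?_)
          have hx0 : 0 ≤ t - x := by linarith [hx.2]
          have hq := exp_neg_le_quad (y := x ^ 2 / 2) (by positivity)
          have e : -(1/2 : ℝ) * x ^ 2 = -(x ^ 2 / 2) := by ring
          rw [e]
          have : rexp (-(x ^ 2 / 2)) ≤ 1 - x ^ 2 / 2 + x ^ 4 / 8 := by
            calc rexp (-(x ^ 2 / 2)) ≤ 1 - x ^ 2 / 2 + (x ^ 2 / 2) ^ 2 / 2 := hq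
              _ = 1 - x ^ 2 / 2 + x ^ 4 / 8 := by ring
          exact mul_le_mul_of_nonneg_right (mul_le_mul_of_nonneg_left this hcpos.le) hx0
      _ = ∫ x in (0:ℝ)..t, c * (1 - x ^ 2 / 2 + x ^ 4 / 8) * (t - x) :=
          (intervalIntegral.integral_of_le ht).symm
      _ = c * (t ^ 2 / 2 - t ^ 4 / 24 + t ^ 6 / 240) := by
          rw [intervalIntegral.integral_eq_sub_of_hasDerivAt
            (fun x _ => poly_antideriv c t x)
            (Continuous.intervalIntegrable (by fun_prop) _ _)]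
          ring
  rw [e1]
  linarith

lemma inv_sqrt_two_pi_le : (√(2 * π))⁻¹ ≤ 398943 / 1000000 := by
  have h1 : (2506624 / 1000000 : ℝ) ≤ √(2 * π) := by
    apply Real.le_sqrt_of_sq_le
    nlinarith [Real.pi_gt_d6]
  have h2 : (0:ℝ) < 2506624 / 1000000 := by norm_num
  calc (√(2 * π))⁻¹ ≤ (2506624 / 1000000 : ℝ)⁻¹ := inv_anti₀ h2 h1
    _ ≤ 398943 / 1000000 := by norm_num

/-! ### Sets in a probability space carrying a standard normal variable -/

section general

variable {Ω : Type*} [MeasurableSpace Ω] {μ : Measure Ω}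

lemma integrable_of_law {s : Ω → ℝ} (hs : Measurable s) (hlaw : μ.map s = gaussianReal 0 1) :
    Integrable s μ := by
  have h : Integrable (fun x : ℝ => x) (μ.map s) := by
    rw [hlaw]
    exact (memLp_id_gaussianReal (μ := 0) (v := 1) 1).integrable (le_refl _)
  exact (integrable_map_measure measurable_id.aestronglyMeasurable hs.aemeasurable).1 h

variable [IsProbabilityMeasure μ]

/-- Bathtub (tangent line) bound. -/
lemma setIntegral_le_psi {s : Ω → ℝ} (hs : Measurable s) (hlaw : μ.map s = gaussianReal 0 1)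
    (A : Set Ω) (t : ℝ) :
    ∫ ω in A, s ω ∂μ ≤ ∫ x, max (x - t) 0 ∂(gaussianReal 0 1) + t * μ.real A := by
  have hint : Integrable s μ := integrable_of_law hs hlaw
  have hint2 : Integrable (fun ω => max (s ω - t) 0) μ :=
    (hint.sub (integrable_const t)).pos_part
  have h1 : ∫ ω in A, s ω ∂μ = ∫ ω in A, (s ω - t) ∂μ + t * μ.real A := by
    rw [integral_sub hint.integrableOn (integrableOn_const (by simp) ), setIntegral_const]
    simp [smul_eq_mul]; ring
  have h2 : ∫ ω in A, (s ω - t) ∂μ ≤ ∫ ω in A, max (s ω - t) 0 ∂μ :=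
    setIntegral_mono (hint.sub (integrable_const t)).integrableOn hint2.integrableOn
      (fun ω => le_max_left _ _)
  have h3 : ∫ ω in A, max (s ω - t) 0 ∂μ ≤ ∫ ω, max (s ω - t) 0 ∂μ :=
    setIntegral_le_integral hint2 (Filter.Eventually.of_forall (fun ω => le_max_right _ _))
  have h4 : ∫ ω, max (s ω - t) 0 ∂μ = ∫ x, max (x - t) 0 ∂(gaussianReal 0 1) := by
    rw [← hlaw, integral_map hs.aemeasurable]
    exact ((measurable_id.sub measurable_const).max measurable_const).aestronglyMeasurable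
  linarith

/-- Cauchy-Schwarz on a set. -/
lemma sq_setIntegral_le {g : Ω → ℝ} (A : Set Ω) (hg : IntegrableOn g A μ)
    (hg2 : IntegrableOn (fun ω => g ω ^ 2) A μ) :
    (∫ ω in A, g ω ∂μ) ^ 2 ≤ μ.real A * ∫ ω in A, g ω ^ 2 ∂μ := by
  set p := μ.real A with hp
  set I1 := ∫ ω in A, g ω ∂μ with hI1
  set I2 := ∫ ω in A, g ω ^ 2 ∂μ with hI2
  have key : ∀ l : ℝ, 0 ≤ I2 - 2 * l * I1 + l ^ 2 * p := by
    intro l
    have h0 : 0 ≤ ∫ ω in A, (g ω - l) ^ 2 ∂μ := integral_nonneg (fun ω => sq_nonneg _)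
    have h1 : ∫ ω in A, (g ω - l) ^ 2 ∂μ = I2 - 2 * l * I1 + l ^ 2 * p := by
      have e : (fun ω => (g ω - l) ^ 2) = fun ω => (g ω ^ 2 - 2 * l * g ω) + l ^ 2 := by
        ext ω; ring
      rw [e]
      have hc : IntegrableOn (fun ω => 2 * l * g ω) A μ := hg.const_mul (2 * l)
      have ha : IntegrableOn (fun ω => g ω ^ 2 - 2 * l * g ω) A μ := hg2.sub hc
      have hb : IntegrableOn (fun _ : Ω => l ^ 2) A μ := integrableOn_const (by simp)
      rw [integral_add ha hb, integral_sub hg2 hc, integral_const_mul, setIntegral_const]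
      simp [smul_eq_mul, hp, hI1, hI2]; ring
    linarith
  have hp0 : 0 ≤ p := measureReal_nonneg
  rcases eq_or_lt_of_le hp0 with h | h
  · have hI1' : I1 = 0 := by
      have : μ A = 0 := by
        have := h.symm
        rw [hp, measureReal_eq_zero_iff (by simp)] at this
        exact this
      rw [hI1, Measure.restrict_eq_zero.2 this, integral_zero_measure]
    rw [hI1', ← h]; simp
  · have := key (I1 / p)
    have e : I2 - 2 * (I1 / p) * I1 + (I1 / p) ^ 2 * p = I2 - I1 ^ 2 / p := by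
      field_simp; ring
    rw [e] at this
    have h2 : I1 ^ 2 / p ≤ I2 := by linarith
    rw [div_le_iff₀ h] at h2
    linarith

/-- Fourth-moment bound. -/
lemma setIntegral_pow4_le {s : Ω → ℝ} (hs : Measurable s) (hlaw : μ.map s = gaussianReal 0 1)
    (A : Set Ω) (hnn : 0 ≤ ∫ ω in A, s ω ∂μ) :
    (∫ ω in A, s ω ∂μ) ^ 4 ≤ 3 / 2 * (μ.real A) ^ 3 := by
  have hint : Integrable s μ := integrable_of_law hs hlaw
  set f : Ω → ℝ := fun ω => max (s ω) 0 with hf
  have hf0 : ∀ ω, 0 ≤ f ω := fun ω => le_max_right _ _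
  have hfm : Measurable f := hs.max measurable_const
  have hf4 : Integrable (fun ω => f ω ^ 4) μ := by
    have h : Integrable (fun x : ℝ => (max x 0) ^ 4) (μ.map s) := by
      rw [hlaw]; exact integrable_pos_part_pow4
    exact (integrable_map_measure
      ((measurable_id.max measurable_const).pow_const 4).aestronglyMeasurable hs.aemeasurable).1 h
  have hf4val : ∫ ω, f ω ^ 4 ∂μ = 3 / 2 := by
    rw [← fourth_moment_pos_part, ← hlaw, integral_map hs.aemeasurable]
    exact ((measurable_id.max measurable_const).pow_const 4).aestronglyMeasurable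
  have hf2 : Integrable (fun ω => f ω ^ 2) μ := by
    refine Integrable.mono' ((integrable_const (1:ℝ)).add hf4)
      (hfm.pow_const 2).aestronglyMeasurable (Filter.Eventually.of_forall (fun ω => ?_))
    simp only [Real.norm_eq_abs, Pi.add_apply]
    rw [abs_of_nonneg (sq_nonneg _)]
    nlinarith [sq_nonneg (f ω ^ 2 - 1), sq_nonneg (f ω)]
  have hf1 : Integrable f μ := hint.pos_part
  set p := μ.real A with hp
  have hp0 : 0 ≤ p := measureReal_nonneg
  set I1 := ∫ ω in A, f ω ∂μ with hI1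
  set I2 := ∫ ω in A, f ω ^ 2 ∂μ with hI2
  set I4 := ∫ ω in A, f ω ^ 4 ∂μ with hI4
  have c1 : I1 ^ 2 ≤ p * I2 := sq_setIntegral_le A hf1.integrableOn hf2.integrableOn
  have c2 : I2 ^ 2 ≤ p * I4 := by
    have := sq_setIntegral_le (g := fun ω => f ω ^ 2) A hf2.integrableOn
      (by
        have : (fun ω => (f ω ^ 2) ^ 2) = fun ω => f ω ^ 4 := by ext ω; ring
        rw [this]; exact hf4.integrableOn)
    have e : ∫ ω in A, (f ω ^ 2) ^ 2 ∂μ = I4 := by
      rw [hI4]; congr 1; ext ω; ring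
    rw [e] at this
    exact this
  have c3 : I4 ≤ 3 / 2 := by
    rw [← hf4val]
    exact setIntegral_le_integral hf4
      (Filter.Eventually.of_forall (fun ω => pow_nonneg (hf0 ω) 4))
  have c0 : ∫ ω in A, s ω ∂μ ≤ I1 :=
    setIntegral_mono hint.integrableOn hf1.integrableOn (fun ω => le_max_left _ _)
  calc (∫ ω in A, s ω ∂μ) ^ 4 ≤ I1 ^ 4 := pow_le_pow_left₀ hnn c0 4
    _ = (I1 ^ 2) ^ 2 := by ring
    _ ≤ (p * I2) ^ 2 := pow_le_pow_left₀ (sq_nonneg _) c1 2
    _ = p ^ 2 * I2 ^ 2 := by ring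
    _ ≤ p ^ 2 * (p * I4) := mul_le_mul_of_nonneg_left c2 (sq_nonneg _)
    _ ≤ p ^ 2 * (p * (3 / 2)) :=
        mul_le_mul_of_nonneg_left (mul_le_mul_of_nonneg_left c3 hp0) (sq_nonneg _)
    _ = 3 / 2 * p ^ 3 := by ring

end general

/-! ### Gaussian first moments of sets in a Euclidean space -/

section euclid

variable {E : Type*} [NormedAddCommGroup E] [InnerProductSpace ℝ E] [FiniteDimensional ℝ E]
  [MeasurableSpace E] [BorelSpace E]

lemma law_inner (u : E) (hu : ‖u‖ = 1) :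
    (stdGaussian E).map (fun x => ⟪u, x⟫) = gaussianReal 0 1 := by
  have h := IsGaussian.map_eq_gaussianReal (μ := stdGaussian E) (innerSL ℝ u)
  rw [integral_strongDual_stdGaussian, variance_dual_stdGaussian, innerSL_apply_norm, hu] at h
  simpa using h

lemma exists_unit_norm_eq (A : Set E) (hz : (∫ x in A, x ∂(stdGaussian E)) ≠ 0) :
    ∃ u : E, ‖u‖ = 1 ∧
      ‖∫ x in A, x ∂(stdGaussian E)‖ = ∫ x in A, ⟪u, x⟫ ∂(stdGaussian E) := by
  set z := ∫ x in A, x ∂(stdGaussian E) with hzdef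
  refine ⟨(‖z‖⁻¹) • z, norm_smul_inv_norm hz, ?_⟩
  have hint : IntegrableOn (fun x : E => x) A (stdGaussian E) :=
    (IsGaussian.integrable_fun_id (μ := stdGaussian E)).integrableOn
  rw [integral_inner hint, ← hzdef, real_inner_smul_left, real_inner_self_eq_norm_sq]
  have hz' : ‖z‖ ≠ 0 := norm_ne_zero_iff.2 hz
  field_simp

/-- Fourth-moment bound for the Gaussian first moment of a set. -/
lemma norm_moment_pow4_le (A : Set E) :
    ‖∫ x in A, x ∂(stdGaussian E)‖ ^ 4 ≤ 3 / 2 * ((stdGaussian E).real A) ^ 3 := by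
  by_cases hz : (∫ x in A, x ∂(stdGaussian E)) = 0
  · rw [hz, norm_zero]
    have : (0:ℝ) ≤ (stdGaussian E).real A := measureReal_nonneg
    have h3 : (0:ℝ) ≤ 3 / 2 * ((stdGaussian E).real A) ^ 3 := by positivity
    calc (0:ℝ) ^ 4 = 0 := by norm_num
      _ ≤ _ := h3
  · obtain ⟨u, hu, h⟩ := exists_unit_norm_eq A hz
    rw [h]
    exact setIntegral_pow4_le (by fun_prop) (law_inner u hu) A (by rw [← h]; exact norm_nonneg _)

/-- Tangent-line bound for the Gaussian first moment of a set. -/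
lemma norm_moment_le_psi (A : Set E) {t : ℝ} (ht : 0 ≤ t) :
    ‖∫ x in A, x ∂(stdGaussian E)‖
      ≤ (√(2 * π))⁻¹ * (1 + t ^ 2 / 2 - t ^ 4 / 24 + t ^ 6 / 240) - t / 2
        + t * (stdGaussian E).real A := by
  have hp0 : (0:ℝ) ≤ (stdGaussian E).real A := measureReal_nonneg
  by_cases hz : (∫ x in A, x ∂(stdGaussian E)) = 0
  · rw [hz, norm_zero]
    have h1 : 0 ≤ ∫ x, max (x - t) 0 ∂(gaussianReal 0 1) :=
      integral_nonneg (fun x => le_max_right _ _)
    have h2 := psi_le ht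
    have h3 : 0 ≤ t * (stdGaussian E).real A := mul_nonneg ht hp0
    linarith
  · obtain ⟨u, hu, h⟩ := exists_unit_norm_eq A hz
    rw [h]
    have h1 := setIntegral_le_psi (μ := stdGaussian E) (s := fun x => ⟪u, x⟫) (by fun_prop)
      (law_inner u hu) A t
    have h2 := psi_le ht
    linarith

/-- Numeric form of the tangent-line bound. -/
lemma norm_moment_le_num (A : Set E) {t : ℝ} (ht : 0 ≤ t)
    (hP : 0 ≤ 1 + t ^ 2 / 2 - t ^ 4 / 24 + t ^ 6 / 240) :
    ‖∫ x in A, x ∂(stdGaussian E)‖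
      ≤ 398943 / 1000000 * (1 + t ^ 2 / 2 - t ^ 4 / 24 + t ^ 6 / 240) - t / 2
        + t * (stdGaussian E).real A := by
  have h1 := norm_moment_le_psi A ht
  have h2 := mul_le_mul_of_nonneg_right inv_sqrt_two_pi_le hP
  linarith

end euclid

/-- A convex quadratic which is nonpositive at the endpoints of an interval is nonpositive
inside. -/
lemma quad_interval {n p a t c lo hi : ℝ} (hn0 : 0 ≤ n) (hn : n ≤ a + t * p)
    (hlo : lo ≤ p) (hhi : p ≤ hi)
    (h1 : (a + t * lo) ^ 2 ≤ c * lo) (h2 : (a + t * hi) ^ 2 ≤ c * hi) : n ^ 2 ≤ c * p := by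
  have hsq : n ^ 2 ≤ (a + t * p) ^ 2 := pow_le_pow_left₀ hn0 hn 2
  refine hsq.trans ?_
  rcases eq_or_lt_of_le (hlo.trans hhi) with h | h
  · have : p = lo := le_antisymm (by rw [h]; exact hhi) hlo
    rw [this]; exact h1
  · have key : (hi - lo) * ((a + t * p) ^ 2 - c * p)
        = (hi - p) * ((a + t * lo) ^ 2 - c * lo) + (p - lo) * ((a + t * hi) ^ 2 - c * hi)
          - t ^ 2 * ((hi - p) * (p - lo) * (hi - lo)) := by ring
    have h3 : (hi - p) * ((a + t * lo) ^ 2 - c * lo) ≤ 0 :=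
      mul_nonpos_of_nonneg_of_nonpos (by linarith) (by linarith)
    have h4 : (p - lo) * ((a + t * hi) ^ 2 - c * hi) ≤ 0 :=
      mul_nonpos_of_nonneg_of_nonpos (by linarith) (by linarith)
    have h5 : 0 ≤ t ^ 2 * ((hi - p) * (p - lo) * (hi - lo)) := by
      apply mul_nonneg (sq_nonneg _)
      apply mul_nonneg (mul_nonneg (by linarith) (by linarith)) (by linarith)
    have h6 : (hi - lo) * ((a + t * p) ^ 2 - c * p) ≤ 0 := by rw [key]; linarith
    have h7 : (a + t * p) ^ 2 - c * p ≤ 0 := by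
      by_contra hcon
      have hcon' : 0 < (a + t * p) ^ 2 - c * p := not_le.1 hcon
      have : 0 < (hi - lo) * ((a + t * p) ^ 2 - c * p) := mul_pos (by linarith) hcon'
      linarith
    linarith

end Vale.Agent.Lib.P226
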