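import Mathlib
import Vale.Agent.Lib.P226.Basic

/-!
Explicit per-cell bounds `‖z(A)‖² ≤ c · γ(A)` for the Gaussian first moment `z(A)`.
-/

namespace Vale.Agent.Lib.P226

open MeasureTheory ProbabilityTheory Real Set

section euclid

variable {E : Type*} [NormedAddCommGroup E] [InnerProductSpace ℝ E] [FiniteDimensional ℝ E]
  [MeasurableSpace E] [BorelSpace E]

lemma nine_div_eight_pi_ge : (358098 / 1000000 : ℝ) ≤ 9 / (8 * π) := by
  rw [le_div_iff₀ (by positivity)]
  nlinarith [Real.pi_lt_d6]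

/-- From the fourth-moment bound: if `γ(A) ≤ q` and `3/2 · q ≤ c²` then `‖z(A)‖² ≤ c γ(A)`. -/
lemma cell_of_small (A : Set E) {q c : ℝ} (hc : 0 ≤ c) (hq : (stdGaussian E).real A ≤ q)
    (hqc : 3 / 2 * q ≤ c ^ 2) :
    ‖∫ x in A, x ∂(stdGaussian E)‖ ^ 2 ≤ c * (stdGaussian E).real A := by
  have hp0 : (0:ℝ) ≤ (stdGaussian E).real A := measureReal_nonneg
  have h4 := norm_moment_pow4_le A
  set n := ‖∫ x in A, x ∂(stdGaussian E)‖ with hn
  set p := (stdGaussian E).real A with hp
  have h5 : (n ^ 2) ^ 2 ≤ (c * p) ^ 2 := by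
    have e1 : (n ^ 2) ^ 2 = n ^ 4 := by ring
    have e2 : 3 / 2 * p ^ 3 ≤ (c * p) ^ 2 := by
      have : 3 / 2 * p ^ 3 = (3 / 2 * p) * p ^ 2 := by ring
      rw [this, mul_pow]
      have h6 : 3 / 2 * p ≤ c ^ 2 := by nlinarith
      exact mul_le_mul_of_nonneg_right h6 (sq_nonneg p)
    rw [e1]; exact h4.trans e2
  exact (pow_le_pow_iff_left₀ (sq_nonneg n) (mul_nonneg hc hp0) two_ne_zero).1 h5

/-- Cells of Gaussian measure at most `1/7` satisfy `‖z(A)‖² ≤ 9/(8π) · γ(A)`. -/
lemma cell_small (A : Set E) (hA : (stdGaussian E).real A ≤ 1 / 7) :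
    ‖∫ x in A, x ∂(stdGaussian E)‖ ^ 2 ≤ 9 / (8 * π) * (stdGaussian E).real A := by
  have hp0 : (0:ℝ) ≤ (stdGaussian E).real A := measureReal_nonneg
  have hcpi := nine_div_eight_pi_ge
  have key : ‖∫ x in A, x ∂(stdGaussian E)‖ ^ 2
      ≤ 358098 / 1000000 * (stdGaussian E).real A := by
    rcases le_or_gt ((stdGaussian E).real A) (85 / 1000) with h | h
    · exact cell_of_small A (by norm_num) h (by norm_num)
    · have hnum := norm_moment_le_num A (t := 107 / 100) (by norm_num) (by norm_num)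
      exact quad_interval (norm_nonneg _) hnum h.le hA (by norm_num) (by norm_num)
  exact key.trans (mul_le_mul_of_nonneg_right hcpi hp0)

/-- Every set satisfies `‖z(A)‖² ≤ 0.41 · γ(A)`. -/
lemma cell_general (A : Set E) :
    ‖∫ x in A, x ∂(stdGaussian E)‖ ^ 2 ≤ 41 / 100 * (stdGaussian E).real A := by
  have hp1 : (stdGaussian E).real A ≤ 1 := measureReal_le_one
  rcases le_or_gt ((stdGaussian E).real A) (11 / 100) with h | h
  · exact cell_of_small A (by norm_num) h (by norm_num)
  rcases le_or_gt ((stdGaussian E).real A) (225 / 1000) with h' | h'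
  · have hnum := norm_moment_le_num A (t := 9 / 10) (by norm_num) (by norm_num)
    exact quad_interval (norm_nonneg _) hnum h.le h' (by norm_num) (by norm_num)
  rcases le_or_gt ((stdGaussian E).real A) (35 / 100) with h'' | h''
  · have hnum := norm_moment_le_num A (t := 6 / 10) (by norm_num) (by norm_num)
    exact quad_interval (norm_nonneg _) hnum h'.le h'' (by norm_num) (by norm_num)
  · have hnum := norm_moment_le_num A (t := 3 / 10) (by norm_num) (by norm_num)
    exact quad_interval (norm_nonneg _) hnum h''.le hp1 (by norm_num) (by norm_num)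

/-- Summing a per-cell bound over a finite disjoint family. -/
lemma sum_le_of_cells {k : ℕ} (A : Fin k → Set E) (hA : ∀ i, MeasurableSet (A i))
    (hdisj : Pairwise (Function.onFun Disjoint A)) {c : ℝ} (hc : 0 ≤ c)
    (hcell : ∀ i, ‖∫ x in A i, x ∂(stdGaussian E)‖ ^ 2 ≤ c * (stdGaussian E).real (A i)) :
    ∑ i, ‖∫ x in A i, x ∂(stdGaussian E)‖ ^ 2 ≤ c := by
  have hsum : ∑ i, (stdGaussian E).real (A i) ≤ 1 := by
    rw [← measureReal_iUnion_fintype hdisj hA]
    exact measureReal_le_one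
  calc ∑ i, ‖∫ x in A i, x ∂(stdGaussian E)‖ ^ 2
      ≤ ∑ i, c * (stdGaussian E).real (A i) := Finset.sum_le_sum (fun i _ => hcell i)
    _ = c * ∑ i, (stdGaussian E).real (A i) := by rw [Finset.mul_sum]
    _ ≤ c * 1 := mul_le_mul_of_nonneg_left hsum hc
    _ = c := mul_one c

end euclid

end Vale.Agent.Lib.P226
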